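import Vale.Agent.P302.Level

/-!
# P302: from integer certificates to bounds for `OPT` and `LP`
-/

namespace Vale.Agent.P302

theorem mem_inst {L : ℕ} {items : List ℕ} {q : ℚ} :
    q ∈ inst L items ↔ ∃ x : ℕ, x ∈ items ∧ (x : ℚ) / L = q := by
  unfold inst
  exact List.mem_map

theorem floor_div_mul (L : ℕ) (hL : 0 < L) (x : ℕ) : ⌊((x : ℚ) / L) * L⌋₊ = x := by
  have : (L : ℚ) ≠ 0 := by positivity
  rw [div_mul_cancel₀ _ this, Nat.floor_natCast]

theorem sum_eq_of_range (L : ℕ) (hL : 0 < L) : ∀ (b : List ℚ),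
    (∀ q ∈ b, ∃ x : ℕ, q = (x : ℚ) / L) →
    b.sum = (((b.map (fun q : ℚ => ⌊q * (L : ℚ)⌋₊)).sum : ℕ) : ℚ) / L
  | [], _ => by simp
  | q :: b, h => by
      obtain ⟨x, rfl⟩ := h q (List.mem_cons_self)
      have ih := sum_eq_of_range L hL b (fun q hq => h q (List.mem_cons_of_mem _ hq))
      rw [List.sum_cons, List.map_cons, List.sum_cons, floor_div_mul L hL, ih]
      push_cast
      ring

theorem forall₂_replicate (L : ℕ) : ∀ (l : List (List ℕ)), (∀ b ∈ l, b.sum ≤ L) →
    List.Forall₂ (fun b c => b.sum ≤ c) l (List.replicate l.length L)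
  | [], _ => List.Forall₂.nil
  | b :: l, h => by
      rw [List.length_cons, List.replicate_succ]
      exact List.Forall₂.cons (h b (List.mem_cons_self))
        (forall₂_replicate L l (fun b hb => h b (List.mem_cons_of_mem _ hb)))

theorem fits_of_packable (L : ℕ) (hL : 0 < L) (items : List ℕ) (k : ℕ)
    (h : Packable (inst L items) k) : Fits items (List.replicate k L) := by
  obtain ⟨bins, hlen, hperm, hsum⟩ := h
  have hLq : (0 : ℚ) < L := by exact_mod_cast hL
  have hrange : ∀ b ∈ bins, ∀ q ∈ b, ∃ x : ℕ, q = (x : ℚ) / L := by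
    intro b hb q hq
    have : q ∈ inst L items := hperm.mem_iff.1 (List.mem_flatten.2 ⟨b, hb, hq⟩)
    obtain ⟨x, -, rfl⟩ := mem_inst.1 this
    exact ⟨x, rfl⟩
  set bins' : List (List ℕ) := bins.map (List.map (fun q : ℚ => ⌊q * (L : ℚ)⌋₊)) with hbins'
  have h1 : bins'.flatten.Perm items := by
    have e : bins'.flatten = bins.flatten.map (fun q : ℚ => ⌊q * (L : ℚ)⌋₊) := by
      rw [hbins', List.map_flatten]
    rw [e]
    have h2 := hperm.map (fun q : ℚ => ⌊q * (L : ℚ)⌋₊)
    have e2 : (inst L items).map (fun q : ℚ => ⌊q * (L : ℚ)⌋₊) = items := by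
      rw [inst, List.map_map]
      conv_rhs => rw [← List.map_id items]
      exact List.map_congr_left fun x _ => floor_div_mul L hL x
    rwa [e2] at h2
  have h2 : ∀ b ∈ bins', b.sum ≤ L := by
    intro b' hb'
    obtain ⟨b, hb, rfl⟩ := List.mem_map.1 hb'
    have h3 := hsum b hb
    rw [sum_eq_of_range L hL b (hrange b hb), div_le_one hLq] at h3
    exact_mod_cast h3
  have h3 := forall₂_replicate L bins' h2
  have hlen' : bins'.length = k := by rw [hbins', List.length_map, hlen]
  rw [hlen'] at h3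
  exact fits_of_bins items bins' _ h3 h1

theorem not_packable_of_search (L : ℕ) (hL : 0 < L) (items : List ℕ) (s k : ℕ)
    (hs : ∀ y ∈ items, s ≤ y) (h : search s items (List.replicate k L) = false) :
    ¬ Packable (inst L items) k := by
  intro hp
  have := search_true_of_fits s (fits_of_packable L hL items k hp) hs
  rw [h] at this
  exact Bool.false_ne_true this

theorem not_packable_of_bfs (L : ℕ) (hL : 0 < L) (items : List ℕ) (F k : ℕ)
    (hs : ∀ y ∈ items, 0 < y) (h : bfs L F items [(0, List.replicate k L)] = false) :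
    ¬ Packable (inst L items) k := by
  intro hp
  have := bfs_true_of_fits L F items [(0, List.replicate k L)] hs
    ⟨_, List.mem_singleton.2 rfl, fits_of_packable L hL items k hp⟩
  rw [h] at this
  exact Bool.false_ne_true this

theorem Packable.succ {a : List ℚ} {k : ℕ} (h : Packable a k) : Packable a (k + 1) := by
  obtain ⟨bins, hlen, hperm, hsum⟩ := h
  refine ⟨[] :: bins, by simp [hlen], by simpa using hperm, ?_⟩
  intro b hb
  rcases List.mem_cons.1 hb with rfl | hb
  · simp
  · exact hsum b hb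

theorem Packable.mono {a : List ℚ} {k k' : ℕ} (h : Packable a k) (hk : k ≤ k') :
    Packable a k' := by
  induction hk with
  | refl => exact h
  | step _ ih => exact ih.succ

theorem packable_length (a : List ℚ) (ha : ∀ x ∈ a, x ≤ 1) : Packable a a.length := by
  refine ⟨a.map (fun x => [x]), by simp, ?_, ?_⟩
  · have : (a.map (fun x => [x])).flatten = a := by
      induction a with
      | nil => rfl
      | cons x l ih =>
        simp only [List.map_cons, List.flatten_cons, List.singleton_append]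
        rw [ih (fun y hy => ha y (List.mem_cons_of_mem _ hy))]
    rw [this]
  · intro b hb
    obtain ⟨x, hx, rfl⟩ := List.mem_map.1 hb
    simpa using ha x hx

theorem succ_le_OPT (a : List ℚ) (ha : ∀ x ∈ a, x ≤ 1) (k : ℕ) (h : ¬ Packable a k) :
    k + 1 ≤ OPT a := by
  apply le_csInf ⟨a.length, packable_length a ha⟩
  intro j hj
  by_contra hlt
  exact h (Packable.mono hj (by omega))

theorem OPT_le (a : List ℚ) (k : ℕ) (h : Packable a k) : OPT a ≤ k := Nat.sInf_le h

/-! ### the LP -/

theorem LP_le (a : List ℚ) (z : Multiset ℚ →₀ ℝ) (hz : IsFracSol a z) :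
    LP a ≤ z.sum fun _ w => w := by
  apply csInf_le
  · refine ⟨0, ?_⟩
    rintro v ⟨z', hz', rfl⟩
    exact Finsupp.sum_nonneg fun c _ => hz'.1 c
  · exact ⟨z, hz, rfl⟩

/-- the finitely supported weight function given by a list of weighted configurations -/
noncomputable def zOf (P : List (Multiset ℚ × ℝ)) : Multiset ℚ →₀ ℝ :=
  (P.map fun p => Finsupp.single p.1 p.2).sum

theorem zOf_sum (h : Multiset ℚ → ℝ → ℝ) (h0 : ∀ c, h c 0 = 0)
    (hadd : ∀ c w w', h c (w + w') = h c w + h c w') : ∀ P : List (Multiset ℚ × ℝ),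
    (zOf P).sum h = (P.map fun p => h p.1 p.2).sum
  | [] => by simp [zOf]
  | p :: P => by
      have ih := zOf_sum h h0 hadd P
      have e : zOf (p :: P) = Finsupp.single p.1 p.2 + zOf P := by simp [zOf]
      rw [e, Finsupp.sum_add_index' h0 hadd, Finsupp.sum_single_index (h0 _), ih]
      simp

theorem zOf_nonneg : ∀ P : List (Multiset ℚ × ℝ), (∀ p ∈ P, 0 ≤ p.2) → ∀ c, 0 ≤ zOf P c
  | [], _, c => by simp [zOf]
  | p :: P, h, c => by
      have ih := zOf_nonneg P (fun q hq => h q (List.mem_cons_of_mem _ hq)) c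
      have e : zOf (p :: P) = Finsupp.single p.1 p.2 + zOf P := by simp [zOf]
      rw [e, Finsupp.add_apply]
      have : 0 ≤ Finsupp.single p.1 p.2 c := by
        rw [Finsupp.single_apply]
        split_ifs
        · exact h p (List.mem_cons_self)
        · exact le_rfl
      linarith

theorem zOf_support : ∀ P : List (Multiset ℚ × ℝ), ∀ c ∈ (zOf P).support, ∃ p ∈ P, p.1 = c
  | [], c, hc => by simp [zOf] at hc
  | p :: P, c, hc => by
      have e : zOf (p :: P) = Finsupp.single p.1 p.2 + zOf P := by simp [zOf]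
      rw [e] at hc
      rcases Finset.mem_union.1 (Finsupp.support_add hc) with h | h
      · have := Finsupp.support_single_subset h
        rw [Finset.mem_singleton] at this
        exact ⟨p, List.mem_cons_self, this.symm⟩
      · obtain ⟨q, hq, rfl⟩ := zOf_support P c h
        exact ⟨q, List.mem_cons_of_mem _ hq, rfl⟩

theorem div_injective (L : ℕ) (hL : 0 < L) : Function.Injective (fun x : ℕ => (x : ℚ) / L) := by
  intro x y h
  have hLq : (L : ℚ) ≠ 0 := by positivity
  have h' : (x : ℚ) / L = (y : ℚ) / L := h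
  rw [div_left_inj' hLq] at h'
  exact_mod_cast h'

theorem sum_map_div (L : ℕ) (l : List ℕ) :
    (l.map (fun x : ℕ => (x : ℚ) / L)).sum = ((l.sum : ℕ) : ℚ) / L := by
  induction l with
  | nil => simp
  | cons x l ih =>
    rw [List.map_cons, List.sum_cons, List.sum_cons, ih]
    push_cast
    ring

/-- the weighted configurations given by integer data: pattern `p.1` with weight `p.2 / D` -/
noncomputable def patsOf (L D : ℕ) (pats : List (List ℕ × ℕ)) : List (Multiset ℚ × ℝ) :=
  pats.map fun p => (((p.1.map fun x : ℕ => (x : ℚ) / L : List ℚ) : Multiset ℚ), (p.2 : ℝ) / D)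

theorem sum_patsOf (L D : ℕ) (g : List ℕ → ℕ) (G : Multiset ℚ → ℝ)
    (hG : ∀ l : List ℕ, G ((l.map fun x : ℕ => (x : ℚ) / L : List ℚ) : Multiset ℚ) = g l) :
    ∀ pats : List (List ℕ × ℕ),
    ((patsOf L D pats).map fun p => G p.1 * p.2).sum
      = (((pats.map fun p => g p.1 * p.2).sum : ℕ) : ℝ) / D
  | [] => by simp [patsOf]
  | p :: pats => by
      have ih := sum_patsOf L D g G hG pats
      simp only [patsOf, List.map_cons, List.sum_cons] at ih ⊢
      rw [ih, hG]
      push_cast
      ring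

theorem LP_le_of_pats (L D : ℕ) (hL : 0 < L) (hD : 0 < D) (items : List ℕ)
    (pats : List (List ℕ × ℕ)) (hmem : ∀ p ∈ pats, ∀ x ∈ p.1, x ∈ items)
    (hcap : ∀ p ∈ pats, p.1.sum ≤ L)
    (hcov : ∀ x ∈ items, D * items.count x ≤ (pats.map fun p => p.1.count x * p.2).sum) :
    LP (inst L items) ≤ (((pats.map fun p => p.2).sum : ℕ) : ℝ) / D := by
  have hLq : (0 : ℚ) < L := by exact_mod_cast hL
  have hDr : (0 : ℝ) < D := by exact_mod_cast hD
  have hsol : IsFracSol (inst L items) (zOf (patsOf L D pats)) := by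
    refine ⟨zOf_nonneg _ ?_, ?_, ?_⟩
    · intro p hp
      obtain ⟨q, -, rfl⟩ := List.mem_map.1 hp
      positivity
    · intro c hc
      obtain ⟨p, hp, rfl⟩ := zOf_support _ c hc
      obtain ⟨q, hq, rfl⟩ := List.mem_map.1 hp
      refine ⟨?_, ?_⟩
      · intro σ hσ
        rw [Multiset.mem_coe] at hσ
        obtain ⟨x, hx, rfl⟩ := List.mem_map.1 hσ
        exact mem_inst.2 ⟨x, hmem q hq x hx, rfl⟩
      · rw [Multiset.sum_coe, sum_map_div, div_le_one hLq]
        exact_mod_cast hcap q hq
    · intro σ hσ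
      obtain ⟨x, hx, rfl⟩ := mem_inst.1 hσ
      rw [zOf_sum (fun c w => (c.count ((x : ℚ) / L) : ℝ) * w) (fun c => mul_zero _)
        (fun c w w' => mul_add _ _ _)]
      rw [sum_patsOf L D (fun l => l.count x) (fun c => (c.count ((x : ℚ) / L) : ℝ))]
      · rw [inst, List.count_map_of_injective _ _ (div_injective L hL), le_div_iff₀ hDr]
        have := hcov x hx
        have h2 : ((D * items.count x : ℕ) : ℝ)
            ≤ (((pats.map fun p => p.1.count x * p.2).sum : ℕ) : ℝ) := by exact_mod_cast this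
        push_cast at h2 ⊢
        linarith
      · intro l
        rw [Multiset.coe_count, List.count_map_of_injective _ _ (div_injective L hL)]
  refine (LP_le _ _ hsol).trans (le_of_eq ?_)
  rw [zOf_sum (fun _ w => w) (fun _ => rfl) (fun _ _ _ => rfl)]
  have := sum_patsOf L D (fun _ => 1) (fun _ => 1) (fun _ => by simp) pats
  simpa using this

theorem inst_valid (L : ℕ) (hL : 0 < L) (items : List ℕ) (h : ∀ x ∈ items, 0 < x ∧ x ≤ L) :
    ∀ q ∈ inst L items, 0 < q ∧ q ≤ 1 := by
  intro q hq
  obtain ⟨x, hx, rfl⟩ := mem_inst.1 hq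
  have hLq : (0 : ℚ) < L := by exact_mod_cast hL
  obtain ⟨h1, h2⟩ := h x hx
  refine ⟨by positivity, ?_⟩
  rw [div_le_one hLq]
  exact_mod_cast h2

theorem packable_of_bins (L : ℕ) (hL : 0 < L) (items : List ℕ) (bins : List (List ℕ))
    (hperm : bins.flatten.Perm items) (hsum : ∀ b ∈ bins, b.sum ≤ L) :
    Packable (inst L items) bins.length := by
  have hLq : (0 : ℚ) < L := by exact_mod_cast hL
  refine ⟨bins.map (List.map (fun x : ℕ => (x : ℚ) / (L : ℚ))), by simp, ?_, ?_⟩
  · rw [← List.map_flatten]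
    exact hperm.map _
  · intro b hb
    obtain ⟨b', hb', rfl⟩ := List.mem_map.1 hb
    rw [sum_map_div, div_le_one hLq]
    exact_mod_cast hsum b' hb'

/-- The certificate theorem: integer data which prove `OPT = k + 1` and `LP ≤ W / D`. -/
theorem certificate (L D : ℕ) (hL : 0 < L) (hD : 0 < D) (items : List ℕ) (F k : ℕ)
    (hitems : ∀ x ∈ items, 0 < x ∧ x ≤ L)
    (hsearch : bfs L F items [(0, List.replicate k L)] = false)
    (bins : List (List ℕ)) (hlen : bins.length = k + 1)
    (hperm : bins.flatten.Perm items) (hsum : ∀ b ∈ bins, b.sum ≤ L)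
    (pats : List (List ℕ × ℕ)) (hmem : ∀ p ∈ pats, ∀ x ∈ p.1, x ∈ items)
    (hcap : ∀ p ∈ pats, p.1.sum ≤ L)
    (hcov : ∀ x ∈ items, D * items.count x ≤ (pats.map fun p => p.1.count x * p.2).sum) :
    (∀ q ∈ inst L items, 0 < q ∧ q ≤ 1) ∧ OPT (inst L items) = k + 1 ∧
      LP (inst L items) ≤ (((pats.map fun p => p.2).sum : ℕ) : ℝ) / D := by
  have hv := inst_valid L hL items hitems
  refine ⟨hv, le_antisymm ?_ ?_, LP_le_of_pats L D hL hD items pats hmem hcap hcov⟩
  · have := packable_of_bins L hL items bins hperm hsum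
    rw [hlen] at this
    exact OPT_le _ _ this
  · exact succ_le_OPT _ (fun x hx => (hv x hx).2) k
      (not_packable_of_bfs L hL items F k (fun y hy => (hitems y hy).1) hsearch)

end Vale.Agent.P302
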