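import Vale.Agent.P302.Bridge

/-!
# P302: a composition lemma for non-packability

The instance consists of `bigs` (pairwise too large for a common bin), of items `U` which do not fit
beside a big item, and of small items `S`.  If at most `S.length - D` of the small items can be put
beside the big items, and `U` together with `D` items of the least small size cannot be packed into
`m` bins, then the whole instance cannot be packed into `bigs.length + m` bins.
-/

namespace Vale.Agent.P302

/-- the third list is obtained by interleaving the first two lists -/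
inductive Interleave : List ℕ → List ℕ → List ℕ → Prop
  | nil : Interleave [] [] []
  | left (x : ℕ) {a b l : List ℕ} : Interleave a b l → Interleave (x :: a) b (x :: l)
  | right (x : ℕ) {a b l : List ℕ} : Interleave a b l → Interleave a (x :: b) (x :: l)

theorem Fits.split : ∀ {xs A B : List ℕ}, Fits xs (A ++ B) →
    ∃ xa xb, Interleave xa xb xs ∧ Fits xa A ∧ Fits xb B
  | [], _, _, _ => ⟨[], [], Interleave.nil, trivial, trivial⟩
  | x :: xs, A, B, h => by
      obtain ⟨pre, c, post, heq, hxc, hf⟩ := h
      have inB : ∀ a', pre = A ++ a' → B = a' ++ c :: post →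
          ∃ xa xb, Interleave xa xb (x :: xs) ∧ Fits xa A ∧ Fits xb B := by
        intro a' h1 h2
        subst h1
        subst h2
        rw [List.append_assoc] at hf
        obtain ⟨xa, xb, hI, hA, hB⟩ := Fits.split hf
        exact ⟨xa, x :: xb, Interleave.right x hI, hA, a', c, post, rfl, hxc, hB⟩
      rcases List.append_eq_append_iff.1 heq with ⟨a', h1, h2⟩ | ⟨c', h1, h2⟩
      · exact inB a' h1 h2
      · rcases c' with _ | ⟨d, c''⟩
        · exact inB [] (by simpa using h1.symm) (by simpa using h2.symm)
        · rw [List.cons_append, List.cons.injEq] at h2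
          obtain ⟨rfl, rfl⟩ := h2
          subst h1
          have hf' : Fits xs ((pre ++ (c - x) :: c'') ++ B) := by simpa using hf
          obtain ⟨xa, xb, hI, hA, hB⟩ := Fits.split hf'
          exact ⟨x :: xa, xb, Interleave.left x hI, ⟨pre, c, c'', rfl, hxc, hA⟩, hB⟩

theorem Interleave.fits {xa xb xs : List ℕ} (h : Interleave xa xb xs) :
    ∀ {A B : List ℕ}, Fits xa A → Fits xb B → Fits xs (A ++ B) := by
  induction h with
  | nil => intro A B _ _; trivial
  | left x _ ih =>
      intro A B hA hB
      obtain ⟨pre, c, post, rfl, hxc, hf⟩ := hA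
      refine ⟨pre, c, post ++ B, by simp, hxc, ?_⟩
      have := ih hf hB
      simpa using this
  | right x _ ih =>
      intro A B hA hB
      obtain ⟨pre, c, post, rfl, hxc, hf⟩ := hB
      refine ⟨A ++ pre, c, post, by simp, hxc, ?_⟩
      have := ih hA hf
      simpa using this

theorem Interleave.length {xa xb xs : List ℕ} (h : Interleave xa xb xs) :
    xa.length + xb.length = xs.length := by
  induction h with
  | nil => rfl
  | left x _ ih => simp only [List.length_cons]; omega
  | right x _ ih => simp only [List.length_cons]; omega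

theorem Interleave.mem_right {xa xb xs : List ℕ} (h : Interleave xa xb xs) :
    ∀ y ∈ xb, y ∈ xs := by
  induction h with
  | nil => intro y hy; exact hy
  | left x _ ih => intro y hy; exact List.mem_cons_of_mem _ (ih y hy)
  | right x _ ih =>
      intro y hy
      rcases List.mem_cons.1 hy with rfl | hy
      · exact List.mem_cons_self
      · exact List.mem_cons_of_mem _ (ih y hy)

theorem Interleave.of_append : ∀ {U S xa xb : List ℕ}, Interleave xa xb (U ++ S) →
    (∀ u ∈ U, u ∉ xa) → ∃ sb, xb = U ++ sb ∧ Interleave xa sb S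
  | [], _, _, xb, h, _ => ⟨xb, rfl, h⟩
  | u :: U, S, xa, xb, h, hU => by
      rw [List.cons_append] at h
      cases h with
      | left _ h' => exact absurd List.mem_cons_self (hU u List.mem_cons_self)
      | right _ h' =>
          obtain ⟨sb, rfl, hI⟩ := Interleave.of_append h'
            (fun v hv => hU v (List.mem_cons_of_mem _ hv))
          exact ⟨sb, rfl, hI⟩

theorem Fits.le_of_mem : ∀ {xs caps : List ℕ}, Fits xs caps → ∀ y ∈ xs, ∃ c ∈ caps, y ≤ c
  | [], _, _, y, hy => by cases hy
  | x :: xs, caps, h, y, hy => by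
      obtain ⟨pre, c, post, rfl, hxc, hf⟩ := h
      rcases List.mem_cons.1 hy with rfl | hy
      · exact ⟨c, by simp, hxc⟩
      · obtain ⟨d, hd, hyd⟩ := hf.le_of_mem y hy
        rcases List.mem_append.1 hd with hd | hd
        · exact ⟨d, by simp [hd], hyd⟩
        · rcases List.mem_cons.1 hd with rfl | hd
          · exact ⟨c, by simp, by omega⟩
          · exact ⟨d, by simp [hd], hyd⟩

theorem Fits.mono_cap {xs pre post : List ℕ} {c c' : ℕ} (h : Fits xs (pre ++ c :: post))
    (hc : c ≤ c') : Fits xs (pre ++ c' :: post) := by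
  have h1 : Fits xs (c :: (pre ++ post)) := h.perm List.perm_middle
  have h2 : Fits xs (c' :: (pre ++ post)) := h1.round_head (fun T _ hT => le_trans hT hc)
  exact h2.perm List.perm_middle.symm

theorem Fits.replicate_of_length : ∀ {sb caps : List ℕ} (D t : ℕ), Fits sb caps →
    D ≤ sb.length → (∀ y ∈ sb, t ≤ y) → Fits (List.replicate D t) caps
  | _, _, 0, _, _, _, _ => trivial
  | [], _, D + 1, _, _, hD, _ => by simp at hD
  | x :: sb, caps, D + 1, t, h, hD, ht => by
      obtain ⟨pre, c, post, rfl, hxc, hf⟩ := h
      have htx : t ≤ x := ht x List.mem_cons_self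
      have ih := hf.replicate_of_length D t (by simpa using hD)
        (fun y hy => ht y (List.mem_cons_of_mem _ hy))
      rw [List.replicate_succ]
      exact ⟨pre, c, post, rfl, le_trans htx hxc, ih.mono_cap (by omega)⟩

theorem Fits.append_map {s s' : List ℕ} (H : ∀ caps, Fits s caps → Fits s' caps) :
    ∀ (U caps : List ℕ), Fits (U ++ s) caps → Fits (U ++ s') caps
  | [], caps, h => H caps h
  | u :: U, caps, h => by
      rw [List.cons_append] at h ⊢
      obtain ⟨pre, c, post, rfl, hxc, hf⟩ := h
      exact ⟨pre, c, post, rfl, hxc, Fits.append_map H U _ hf⟩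

theorem Fits.cons_cap : ∀ {xs caps : List ℕ} (d : ℕ), Fits xs caps → Fits xs (d :: caps)
  | [], _, _, _ => trivial
  | x :: xs, caps, d, h => by
      obtain ⟨pre, c, post, rfl, hxc, hf⟩ := h
      exact ⟨d :: pre, c, post, rfl, hxc, hf.cons_cap d⟩

theorem fits_singles : ∀ (sb : List ℕ) (j M : ℕ), sb.length ≤ j → (∀ y ∈ sb, y ≤ M) →
    Fits sb (List.replicate j M)
  | [], _, _, _, _ => trivial
  | x :: sb, 0, _, hj, _ => by simp at hj
  | x :: sb, j + 1, M, hj, hM => by
      rw [List.replicate_succ]
      refine ⟨[], M, List.replicate j M, rfl, hM x List.mem_cons_self, ?_⟩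
      exact (fits_singles sb j M (by simpa using hj)
        (fun y hy => hM y (List.mem_cons_of_mem _ hy))).cons_cap _

theorem Fits.blockers (L : ℕ) : ∀ (bigs rest R : List ℕ) (j : ℕ),
    (∀ b ∈ bigs, ∀ r ∈ R, r < b) → bigs.Pairwise (fun b b' => L < b + b') →
    Fits (bigs ++ rest) (R ++ List.replicate j L) →
    bigs.length ≤ j ∧
      Fits rest ((R ++ bigs.map (fun b => L - b)) ++ List.replicate (j - bigs.length) L)
  | [], rest, R, j, _, _, h => by simpa using h
  | b :: bigs, rest, R, j, hR, hp, h => by
      rw [List.cons_append] at h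
      obtain ⟨pre, c, post, heq, hbc, hf⟩ := h
      have hc : c ∈ R ++ List.replicate j L := by rw [heq]; simp
      have hcL : c = L ∧ j ≠ 0 := by
        rcases List.mem_append.1 hc with hc | hc
        · have := hR b List.mem_cons_self c hc
          omega
        · have := List.mem_replicate.1 hc
          exact ⟨this.2, this.1⟩
      obtain ⟨rfl, hj⟩ := hcL
      obtain ⟨j', rfl⟩ := Nat.exists_eq_succ_of_ne_zero hj
      have hperm0 : (pre ++ post).Perm (R ++ List.replicate j' c) := by
        have h1 : (c :: (pre ++ post)).Perm (c :: (R ++ List.replicate j' c)) := by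
          refine List.perm_middle.symm.trans ?_
          rw [← heq, List.replicate_succ]
          exact List.perm_middle
        exact h1.cons_inv
      have hperm : (pre ++ (c - b) :: post).Perm ((R ++ [c - b]) ++ List.replicate j' c) := by
        refine List.perm_middle.trans ((hperm0.cons (c - b)).trans ?_)
        rw [List.append_assoc, List.singleton_append]
        exact List.perm_middle.symm
      rw [List.pairwise_cons] at hp
      have ih := Fits.blockers c bigs rest (R ++ [c - b]) j'
        (by
          intro b' hb' r hr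
          rcases List.mem_append.1 hr with hr | hr
          · exact hR b' (List.mem_cons_of_mem _ hb') r hr
          · rw [List.mem_singleton] at hr
            have := hp.1 b' hb'
            omega)
        hp.2 (hf.perm hperm)
      refine ⟨by simpa using ih.1, ?_⟩
      have e1 : R ++ List.map (fun b => c - b) (b :: bigs)
          = (R ++ [c - b]) ++ List.map (fun b => c - b) bigs := by simp
      have e2 : j' + 1 - (b :: bigs).length = j' - bigs.length := by simp
      rw [e1, e2]
      exact ih.2

/-- The composition lemma. -/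
theorem not_fits_compose (L L' F t M D m : ℕ) (bigs U S : List ℕ)
    (hpair : bigs.Pairwise (fun b b' => L < b + b'))
    (hU : ∀ u ∈ U, 0 < u ∧ ∀ b ∈ bigs, L < b + u) (ht : 0 < t)
    (hS : ∀ s ∈ S, t ≤ s ∧ s ≤ M)
    (hG : bfs L' F S [(0, bigs.map (fun b => L - b) ++ List.replicate (D - 1) M)] = false)
    (hV : bfs L F (U ++ List.replicate D t) [(0, List.replicate m L)] = false) :
    ¬ Fits (bigs ++ (U ++ S)) (List.replicate (bigs.length + m) L) := by
  intro h
  have h0 := Fits.blockers L bigs (U ++ S) [] (bigs.length + m) (by simp) hpair (by simpa using h)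
  have h1 : Fits (U ++ S) (bigs.map (fun b => L - b) ++ List.replicate m L) := by
    simpa using h0.2
  obtain ⟨xa, xb, hI, hA, hB⟩ := h1.split
  obtain ⟨sb, rfl, hI'⟩ := hI.of_append (by
    intro u hu hmem
    obtain ⟨c, hc, huc⟩ := hA.le_of_mem u hmem
    obtain ⟨b, hb, rfl⟩ := List.mem_map.1 hc
    have h2 := (hU u hu).2 b hb
    have h3 := (hU u hu).1
    omega)
  by_cases hlen : D ≤ sb.length
  · have h2 : Fits (U ++ List.replicate D t) (List.replicate m L) :=
      Fits.append_map (fun caps hc => hc.replicate_of_length D t hlen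
        (fun y hy => (hS y (hI'.mem_right y hy)).1)) U _ hB
    have := bfs_true_of_fits L F (U ++ List.replicate D t) [(0, List.replicate m L)]
      (by
        intro y hy
        rcases List.mem_append.1 hy with hy | hy
        · exact (hU y hy).1
        · rw [(List.mem_replicate.1 hy).2]; exact ht)
      ⟨_, List.mem_singleton.2 rfl, h2⟩
    rw [hV] at this
    exact Bool.false_ne_true this
  · have h2 : Fits sb (List.replicate (D - 1) M) :=
      fits_singles sb (D - 1) M (by omega) (fun y hy => (hS y (hI'.mem_right y hy)).2)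
    have h3 := hI'.fits hA h2
    have := bfs_true_of_fits L' F S
      [(0, bigs.map (fun b => L - b) ++ List.replicate (D - 1) M)]
      (fun y hy => lt_of_lt_of_le ht (hS y hy).1) ⟨_, List.mem_singleton.2 rfl, h3⟩
    rw [hG] at this
    exact Bool.false_ne_true this

/-- The modular certificate theorem: integer data which prove `OPT = bigs.length + m + 1` and
`LP ≤ W / D₀` for the instance with the items `bigs ++ (U ++ S)`. -/
theorem certificate2 (L D₀ : ℕ) (hL : 0 < L) (hD₀ : 0 < D₀) (L' F t M D m : ℕ) (bigs U S : List ℕ)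
    (hitems : ∀ x ∈ bigs ++ (U ++ S), 0 < x ∧ x ≤ L)
    (hpair : bigs.Pairwise (fun b b' => L < b + b'))
    (hU : ∀ u ∈ U, ∀ b ∈ bigs, L < b + u) (ht : 0 < t)
    (hS : ∀ s ∈ S, t ≤ s ∧ s ≤ M)
    (hG : bfs L' F S [(0, bigs.map (fun b => L - b) ++ List.replicate (D - 1) M)] = false)
    (hV : bfs L F (U ++ List.replicate D t) [(0, List.replicate m L)] = false)
    (bins : List (List ℕ)) (hlen : bins.length = bigs.length + m + 1)
    (hperm : bins.flatten.Perm (bigs ++ (U ++ S))) (hsum : ∀ b ∈ bins, b.sum ≤ L)
    (pats : List (List ℕ × ℕ)) (hmem : ∀ p ∈ pats, ∀ x ∈ p.1, x ∈ bigs ++ (U ++ S))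
    (hcap : ∀ p ∈ pats, p.1.sum ≤ L)
    (hcov : ∀ x ∈ bigs ++ (U ++ S),
      D₀ * (bigs ++ (U ++ S)).count x ≤ (pats.map fun p => p.1.count x * p.2).sum) :
    (∀ q ∈ inst L (bigs ++ (U ++ S)), 0 < q ∧ q ≤ 1) ∧
      OPT (inst L (bigs ++ (U ++ S))) = bigs.length + m + 1 ∧
      LP (inst L (bigs ++ (U ++ S))) ≤ (((pats.map fun p => p.2).sum : ℕ) : ℝ) / D₀ := by
  have hv := inst_valid L hL _ hitems
  refine ⟨hv, le_antisymm ?_ ?_, LP_le_of_pats L D₀ hL hD₀ _ pats hmem hcap hcov⟩
  · have := packable_of_bins L hL _ bins hperm hsum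
    rw [hlen] at this
    exact OPT_le _ _ this
  · refine succ_le_OPT _ (fun x hx => (hv x hx).2) (bigs.length + m) ?_
    intro hp
    exact not_fits_compose L L' F t M D m bigs U S hpair
      (fun u hu => ⟨(hitems u (by simp [hu])).1, hU u hu⟩) ht hS hG hV
      (fits_of_packable L hL _ _ hp)

end Vale.Agent.P302
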