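import Mathlib

/-!
# P302: bin packing, the optimum and the Gilmore-Gomory configuration LP
-/

namespace Vale.Agent.P302

/-- The items of the list `a` can be packed into `k` bins: there is a list of `k` bins (each bin is
the list of the sizes of its items) which together are a rearrangement of `a`, each bin of total
size at most `1`. -/
def Packable (a : List ℚ) (k : ℕ) : Prop :=
  ∃ bins : List (List ℚ), bins.length = k ∧ bins.flatten.Perm a ∧ ∀ b ∈ bins, b.sum ≤ 1

/-- The least number of bins into which the items can be partitioned. -/
noncomputable def OPT (a : List ℚ) : ℕ := sInf {k | Packable a k}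

/-- A configuration of the instance `a`: a multiset of sizes occurring in `a` (a size may be used
more often than its multiplicity in `a`) of total size at most `1`. -/
def IsConfig (a : List ℚ) (c : Multiset ℚ) : Prop := (∀ σ ∈ c, σ ∈ a) ∧ c.sum ≤ 1

/-- A feasible solution of the configuration LP: nonnegative weights on finitely many
configurations which cover every size at least as often as its multiplicity. -/
def IsFracSol (a : List ℚ) (z : Multiset ℚ →₀ ℝ) : Prop :=
  (∀ c, 0 ≤ z c) ∧ (∀ c ∈ z.support, IsConfig a c) ∧
    ∀ σ ∈ a, (a.count σ : ℝ) ≤ z.sum fun c w => (c.count σ : ℝ) * w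

/-- The value of the Gilmore-Gomory configuration LP. -/
noncomputable def LP (a : List ℚ) : ℝ :=
  sInf {v | ∃ z, IsFracSol a z ∧ v = z.sum fun _ w => w}

/-- The instance with the item sizes `x / L`, where `x` runs through the list `items`. -/
def inst (L : ℕ) (items : List ℕ) : List ℚ := items.map (fun x : ℕ => (x : ℚ) / (L : ℚ))

end Vale.Agent.P302
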