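import Vale.Agent.P302.Compose

/-!
# P302: the exact value of the configuration LP from a primal and a dual certificate

Weak duality for the Gilmore-Gomory LP, and a small integer certificate (a table of knapsack
bounds) for the feasibility of a dual solution.
-/

namespace Vale.Agent.P302

/-- The fractional solution given by integer data, as an explicit witness. -/
theorem exists_fracSol_of_pats (L D : ℕ) (hL : 0 < L) (hD : 0 < D) (items : List ℕ)
    (pats : List (List ℕ × ℕ)) (hmem : ∀ p ∈ pats, ∀ x ∈ p.1, x ∈ items)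
    (hcap : ∀ p ∈ pats, p.1.sum ≤ L)
    (hcov : ∀ x ∈ items, D * items.count x ≤ (pats.map fun p => p.1.count x * p.2).sum) :
    ∃ z, IsFracSol (inst L items) z ∧
      (z.sum fun _ w => w) = (((pats.map fun p => p.2).sum : ℕ) : ℝ) / D := by
  have hLq : (0 : ℚ) < L := by exact_mod_cast hL
  have hDr : (0 : ℝ) < D := by exact_mod_cast hD
  have hsol : IsFracSol (inst L items) (zOf (patsOf L D pats)) := by
    refine ⟨zOf_nonneg _ ?_, ?_, ?_⟩
    · intro p hp
      obtain ⟨q, -, rfl⟩ := List.mem_map.1 hp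
      positivity
    · intro c hc
      obtain ⟨p, hp, rfl⟩ := zOf_support _ c hc
      obtain ⟨q, hq, rfl⟩ := List.mem_map.1 hp
      refine ⟨?_, ?_⟩
      · intro σ hσ
        rw [Multiset.mem_coe] at hσ
        obtain ⟨x, hx, rfl⟩ := List.mem_map.1 hσ
        exact mem_inst.2 ⟨x, hmem q hq x hx, rfl⟩
      · rw [Multiset.sum_coe, sum_map_div, div_le_one hLq]
        exact_mod_cast hcap q hq
    · intro σ hσ
      obtain ⟨x, hx, rfl⟩ := mem_inst.1 hσ
      rw [zOf_sum (fun c w => (c.count ((x : ℚ) / L) : ℝ) * w) (fun c => mul_zero _)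
        (fun c w w' => mul_add _ _ _)]
      rw [sum_patsOf L D (fun l => l.count x) (fun c => (c.count ((x : ℚ) / L) : ℝ))]
      · rw [inst, List.count_map_of_injective _ _ (div_injective L hL), le_div_iff₀ hDr]
        have := hcov x hx
        have h2 : ((D * items.count x : ℕ) : ℝ)
            ≤ (((pats.map fun p => p.1.count x * p.2).sum : ℕ) : ℝ) := by exact_mod_cast this
        push_cast at h2 ⊢
        linarith
      · intro l
        rw [Multiset.coe_count, List.count_map_of_injective _ _ (div_injective L hL)]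
  refine ⟨_, hsol, ?_⟩
  rw [zOf_sum (fun _ w => w) (fun _ => rfl) (fun _ _ _ => rfl)]
  have := sum_patsOf L D (fun _ => 1) (fun _ => 1) (fun _ => by simp) pats
  simpa using this

/-- Weak duality: nonnegative prices `y` for which every configuration has total price at most `1`
bound the value of every fractional solution from below. -/
theorem weak_duality (a : List ℚ) (y : ℚ → ℝ) (hy : ∀ σ, 0 ≤ y σ)
    (hfeas : ∀ c, IsConfig a c → (c.map y).sum ≤ 1) (z : Multiset ℚ →₀ ℝ)
    (hz : IsFracSol a z) : (a.map y).sum ≤ z.sum fun _ w => w := by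
  obtain ⟨h0, hc, hcov⟩ := hz
  have e1 : (a.map y).sum = ∑ σ ∈ a.toFinset, (a.count σ : ℝ) * y σ := by
    rw [Finset.sum_list_map_count]
    simp [nsmul_eq_mul]
  have e2 : ∀ c ∈ z.support, (c.map y).sum = ∑ σ ∈ a.toFinset, (c.count σ : ℝ) * y σ := by
    intro c hcs
    rw [Finset.sum_multiset_map_count]
    simp only [nsmul_eq_mul]
    apply Finset.sum_subset
    · intro σ hσ
      rw [Multiset.mem_toFinset] at hσ
      exact List.mem_toFinset.2 ((hc c hcs).1 σ hσ)
    · intro σ _ hσ
      rw [Multiset.mem_toFinset] at hσ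
      rw [Multiset.count_eq_zero_of_notMem hσ]
      simp
  calc (a.map y).sum = ∑ σ ∈ a.toFinset, (a.count σ : ℝ) * y σ := e1
    _ ≤ ∑ σ ∈ a.toFinset, (z.sum fun c w => (c.count σ : ℝ) * w) * y σ := by
        apply Finset.sum_le_sum
        intro σ hσ
        exact mul_le_mul_of_nonneg_right (hcov σ (List.mem_toFinset.1 hσ)) (hy σ)
    _ = ∑ c ∈ z.support, z c * ∑ σ ∈ a.toFinset, (c.count σ : ℝ) * y σ := by
        simp only [Finsupp.sum, Finset.sum_mul, Finset.mul_sum]
        rw [Finset.sum_comm]
        refine Finset.sum_congr rfl fun c _ => Finset.sum_congr rfl fun σ _ => by ring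
    _ = ∑ c ∈ z.support, z c * (c.map y).sum := by
        refine Finset.sum_congr rfl fun c hcs => by rw [e2 c hcs]
    _ ≤ ∑ c ∈ z.support, z c * 1 := by
        apply Finset.sum_le_sum
        intro c hcs
        exact mul_le_mul_of_nonneg_left (hfeas c (hc c hcs)) (h0 c)
    _ = z.sum fun _ w => w := by simp [Finsupp.sum]

/-- lookup in a table of knapsack bounds, the index capped at `D + 1` -/
def tabW (tbl : List ℕ) (D v : ℕ) : ℕ := tbl.getD (min v (D + 1)) 0

/-- If the table is subadditive along the items, then every multiset of items of total price `v`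
has total size at least `tabW v`. -/
theorem tabW_le_sum (tbl : List ℕ) (D : ℕ) (yN : ℕ → ℕ) (items : List ℕ)
    (h0 : tabW tbl D 0 = 0)
    (hstep : ∀ x ∈ items, ∀ v ∈ List.range (D + 2),
      tabW tbl D (yN x + v) ≤ tabW tbl D v + x) :
    ∀ c : Multiset ℕ, (∀ x ∈ c, x ∈ items) → tabW tbl D (c.map yN).sum ≤ c.sum := by
  intro c
  induction c using Multiset.induction_on with
  | empty => intro _; simp [h0]
  | cons x c ih =>
    intro h
    have ih' := ih (fun x' hx' => h x' (Multiset.mem_cons_of_mem hx'))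
    have hx := h x (Multiset.mem_cons_self x c)
    rw [Multiset.map_cons, Multiset.sum_cons, Multiset.sum_cons]
    have h1 := hstep x hx (min (c.map yN).sum (D + 1)) (List.mem_range.2 (by omega))
    have e1 : tabW tbl D (yN x + min (c.map yN).sum (D + 1))
        = tabW tbl D (yN x + (c.map yN).sum) := by
      unfold tabW
      congr 1
      omega
    have e2 : tabW tbl D (min (c.map yN).sum (D + 1)) = tabW tbl D (c.map yN).sum := by
      unfold tabW
      congr 1
      omega
    rw [e1, e2] at h1
    omega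

/-- the price of the size `σ = x / L` is `yN x / D` -/
noncomputable def yOf (L D : ℕ) (yN : ℕ → ℕ) (σ : ℚ) : ℝ := (yN ⌊σ * (L : ℚ)⌋₊ : ℝ) / D

theorem multiset_sum_eq (L : ℕ) (hL : 0 < L) (items : List ℕ) :
    ∀ c : Multiset ℚ, (∀ σ ∈ c, σ ∈ inst L items) →
      c.sum = (((c.map fun σ : ℚ => ⌊σ * (L : ℚ)⌋₊).sum : ℕ) : ℚ) / L := by
  intro c
  induction c using Multiset.induction_on with
  | empty => intro _; simp
  | cons σ c ih =>
    intro h
    have ih' := ih (fun x' hx' => h x' (Multiset.mem_cons_of_mem hx'))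
    obtain ⟨x, -, rfl⟩ := mem_inst.1 (h σ (Multiset.mem_cons_self σ c))
    rw [Multiset.map_cons, Multiset.sum_cons, Multiset.sum_cons, floor_div_mul L hL, ih']
    push_cast
    ring

theorem multiset_price_eq (L D : ℕ) (yN : ℕ → ℕ) (c : Multiset ℚ) :
    (c.map (yOf L D yN)).sum
      = ((((c.map fun σ : ℚ => ⌊σ * (L : ℚ)⌋₊).map yN).sum : ℕ) : ℝ) / D := by
  induction c using Multiset.induction_on with
  | empty => simp
  | cons σ c ih =>
    rw [Multiset.map_cons, Multiset.sum_cons, ih, Multiset.map_cons, Multiset.map_cons,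
      Multiset.sum_cons, yOf]
    push_cast
    ring

theorem list_price_eq (L D : ℕ) (hL : 0 < L) (yN : ℕ → ℕ) (items : List ℕ) :
    ((inst L items).map (yOf L D yN)).sum = (((items.map yN).sum : ℕ) : ℝ) / D := by
  induction items with
  | nil => simp [inst]
  | cons x l ih =>
    have e : inst L (x :: l) = ((x : ℚ) / L) :: inst L l := rfl
    rw [e, List.map_cons, List.sum_cons, ih, List.map_cons, List.sum_cons, yOf,
      floor_div_mul L hL]
    push_cast
    ring

/-- The dual certificate: integer prices `yN x` (in units of `1 / D`) and a table of knapsack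
bounds which shows that no configuration has total price above `1`. -/
theorem le_of_dual (L D : ℕ) (hL : 0 < L) (hD : 0 < D) (items : List ℕ) (yN : ℕ → ℕ)
    (tbl : List ℕ) (h0 : tabW tbl D 0 = 0)
    (hstep : ∀ x ∈ items, ∀ v ∈ List.range (D + 2),
      tabW tbl D (yN x + v) ≤ tabW tbl D v + x)
    (hbig : L < tabW tbl D (D + 1)) (z : Multiset ℚ →₀ ℝ) (hz : IsFracSol (inst L items) z) :
    (((items.map yN).sum : ℕ) : ℝ) / D ≤ z.sum fun _ w => w := by
  have hLq : (0 : ℚ) < L := by exact_mod_cast hL
  have hDr : (0 : ℝ) < D := by exact_mod_cast hD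
  rw [← list_price_eq L D hL yN items]
  refine weak_duality _ _ (fun σ => by unfold yOf; positivity) ?_ z hz
  intro c hc
  rw [multiset_price_eq, div_le_one hDr]
  have h1 := hc.2
  rw [multiset_sum_eq L hL items c hc.1, div_le_one hLq] at h1
  have h2 : (c.map fun σ : ℚ => ⌊σ * (L : ℚ)⌋₊).sum ≤ L := by exact_mod_cast h1
  have h3 := tabW_le_sum tbl D yN items h0 hstep (c.map fun σ : ℚ => ⌊σ * (L : ℚ)⌋₊) (by
    intro x hx
    obtain ⟨σ, hσ, rfl⟩ := Multiset.mem_map.1 hx
    obtain ⟨x', hx', rfl⟩ := mem_inst.1 (hc.1 σ hσ)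
    rw [floor_div_mul L hL]
    exact hx')
  have h4 : ((c.map fun σ : ℚ => ⌊σ * (L : ℚ)⌋₊).map yN).sum ≤ D := by
    by_contra hlt
    have e : tabW tbl D ((c.map fun σ : ℚ => ⌊σ * (L : ℚ)⌋₊).map yN).sum
        = tabW tbl D (D + 1) := by
      unfold tabW
      congr 1
      omega
    rw [e] at h3
    omega
  exact_mod_cast h4

end Vale.Agent.P302
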