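import Vale.Agent.P302.Round

/-!
# P302: level by level search with removal of repeated states

The items are placed one after the other.  A state is the ascending list of the remaining
capacities (rounded to subset sums of the remaining items, zeros removed).  All states which can be
reached after placing the first `i` items are computed, repeated states are removed by a merge sort.
-/

namespace Vale.Agent.P302

/-- evaluate the argument first (the function receives the evaluated number) -/
def force {β : Type} (f : ℕ → β) (n : ℕ) : β :=
  match Nat.add n 1 with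
  | 0 => f n
  | Nat.succ k => f k

theorem force_eq {β : Type} (f : ℕ → β) (n : ℕ) : force f n = f n := rfl

/-- evaluate a list first -/
def forceL {β : Type} : List ℕ → (List ℕ → β) → β
  | [], k => k []
  | a :: l, k => forceL l (fun l' => k (a :: l'))

theorem forceL_eq {β : Type} : ∀ (l : List ℕ) (k : List ℕ → β), forceL l k = k l
  | [], _ => rfl
  | a :: l, k => by rw [forceL, forceL_eq l]

/-- insertion into an ascending list -/
def ins (a : ℕ) : List ℕ → List ℕ
  | [] => [a]
  | b :: l => bif Nat.ble a b then a :: b :: l else b :: ins a l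

theorem ins_perm (a : ℕ) : ∀ l : List ℕ, (ins a l).Perm (a :: l)
  | [] => List.Perm.refl _
  | b :: l => by
      rw [ins]
      cases Nat.ble a b
      · exact ((ins_perm a l).cons b).trans (List.Perm.swap a b l)
      · exact List.Perm.refl _

/-- remove the zeros at the beginning -/
def dropZ : List ℕ → List ℕ
  | [] => []
  | c :: l => bif Nat.beq c 0 then dropZ l else c :: l

theorem Fits.drop_zero : ∀ {xs : List ℕ} {caps : List ℕ}, Fits xs (0 :: caps) →
    (∀ y ∈ xs, 0 < y) → Fits xs caps
  | [], _, _, _ => trivial
  | x :: xs, caps, h, hpos => by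
      obtain ⟨pre, d, post, heq, hxd, hf⟩ := h
      have hx : 0 < x := hpos x List.mem_cons_self
      rcases pre with _ | ⟨e, pre⟩
      · rw [List.nil_append, List.cons.injEq] at heq
        omega
      · rw [List.cons_append, List.cons.injEq] at heq
        obtain ⟨rfl, rfl⟩ := heq
        refine ⟨pre, d, post, rfl, hxd, ?_⟩
        rw [List.cons_append] at hf
        exact hf.drop_zero fun y hy => hpos y (List.mem_cons_of_mem _ hy)

theorem Fits.dropZ {xs : List ℕ} (hpos : ∀ y ∈ xs, 0 < y) : ∀ {caps : List ℕ}, Fits xs caps →
    Fits xs (dropZ caps)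
  | [], h => h
  | c :: l, h => by
      rw [Vale.Agent.P302.dropZ]
      cases hc : Nat.beq c 0
      · exact h
      · have : c = 0 := Nat.eq_of_beq_eq_true hc
        subst this
        exact Fits.dropZ hpos (h.drop_zero hpos)

/-- the sum of a list -/
def sumL : List ℕ → ℕ → ℕ
  | [], s => s
  | c :: l, s => sumL l (Nat.add s c)

theorem sumL_eq : ∀ (l : List ℕ) (s : ℕ), sumL l s = s + l.sum
  | [], s => by simp [sumL]
  | c :: l, s => by
      rw [sumL, sumL_eq l, List.sum_cons]
      show s + c + l.sum = _
      omega

/-- a number which encodes a list (used only to compare states quickly) -/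
def keyOf : List ℕ → ℕ → ℕ
  | [], k => k
  | c :: l, k => keyOf l (Nat.add (Nat.mul k 65536) c)

/-- rounding of all capacities -/
def roundAll (B T : ℕ) : List ℕ → List ℕ
  | [] => []
  | c :: l => force (fun r => r :: roundAll B T l) (rnd B T c)

theorem roundAll_eq (B T : ℕ) : ∀ l : List ℕ, roundAll B T l = l.map (rnd B T)
  | [] => rfl
  | c :: l => by rw [roundAll, force_eq, roundAll_eq B T l, List.map_cons]

/-- add a new state (as a list with one element) unless the volume bound excludes it -/
def emit (need : ℕ) (l : List ℕ) (acc : List (List (ℕ × List ℕ))) : List (List (ℕ × List ℕ)) :=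
  forceL l fun l' =>
    bif Nat.ble need (sumL l' 0) then force (fun k => [(k, l')] :: acc) (keyOf l' 0) else acc

/-- some state of some list has the property `P` -/
def HasR (P : List ℕ → Prop) (runs : List (List (ℕ × List ℕ))) : Prop :=
  ∃ r ∈ runs, ∃ e ∈ r, P e.2

theorem HasR.emit_acc {P : List ℕ → Prop} {need : ℕ} {l : List ℕ}
    {acc : List (List (ℕ × List ℕ))} (h : HasR P acc) : HasR P (emit need l acc) := by
  rw [emit, forceL_eq]
  cases Nat.ble need (sumL l 0)
  · exact h
  · obtain ⟨r, hr, e, he, hP⟩ := h
    exact ⟨r, List.mem_cons_of_mem _ hr, e, he, hP⟩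

theorem HasR.emit_new {P : List ℕ → Prop} {need : ℕ} {l : List ℕ}
    (acc : List (List (ℕ × List ℕ))) (h : P l) (hneed : need ≤ l.sum) :
    HasR P (emit need l acc) := by
  rw [emit, forceL_eq]
  have : Nat.ble need (sumL l 0) = true := by
    rw [sumL_eq]
    exact Nat.ble_eq_true_of_le (by omega)
  rw [this]
  exact ⟨_, List.mem_cons_self, _, List.mem_singleton.2 rfl, h⟩

/-- all states reached from one state by placing an item of size `x`; the arguments are the
rounded capacities treated so far, the capacities to be treated, the same capacities rounded,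
the capacity treated last -/
def expandOne (x need B T : ℕ) : List ℕ → List ℕ → List ℕ → ℕ → List (List (ℕ × List ℕ)) →
    List (List (ℕ × List ℕ))
  | pre', c :: post, c' :: post', prev, acc =>
      expandOne x need B T (pre' ++ [c']) post post' c
        (bif Nat.ble x c && !(Nat.beq c prev) then
          emit need (dropZ (ins (rnd B T (c - x)) pre' ++ post')) acc
        else acc)
  | _, [], _, _, acc => acc
  | _, _ :: _, [], _, acc => acc

theorem HasR.expandOne_acc {P : List ℕ → Prop} (x need B T : ℕ) :
    ∀ (post pre' post' : List ℕ) (prev : ℕ) (acc : List (List (ℕ × List ℕ))), HasR P acc →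
      HasR P (expandOne x need B T pre' post post' prev acc)
  | [], _, _, _, _, h => by rw [expandOne]; exact h
  | _ :: _, _, [], _, _, h => by rw [expandOne]; exact h
  | c :: post, pre', c' :: post', prev, acc, h => by
      rw [expandOne]
      apply HasR.expandOne_acc
      cases (Nat.ble x c && !(Nat.beq c prev))
      · exact h
      · exact h.emit_acc

theorem expandOne_spec {xs : List ℕ} (hpos : ∀ y ∈ xs, 0 < y) (x B T : ℕ)
    (hB : B = sums xs) (c : ℕ) (bs : List ℕ) (hxc : x ≤ c) :
    ∀ (as pre : List ℕ) (prev : ℕ) (acc : List (List (ℕ × List ℕ))), c ∉ as →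
      (as = [] → prev ≠ c) → Fits xs (pre ++ as ++ (c - x) :: bs) →
      HasR (Fits xs) (expandOne x xs.sum B T (pre.map (rnd B T)) (as ++ c :: bs)
        ((as ++ c :: bs).map (rnd B T)) prev acc)
  | [], pre, prev, acc, _, hprev, hf => by
      rw [List.nil_append, List.map_cons, expandOne]
      apply HasR.expandOne_acc
      have h1 : Nat.ble x c = true := Nat.ble_eq_true_of_le hxc
      have h2 : Nat.beq c prev = false := by
        cases h : Nat.beq c prev
        · rfl
        · exact absurd (Nat.eq_of_beq_eq_true h).symm (hprev rfl)
      rw [h1, h2]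
      simp only [Bool.not_false, Bool.and_self, cond_true]
      rw [List.append_nil] at hf
      have h3 := hf.round T
      rw [← hB, List.map_append, List.map_cons] at h3
      have h4 : Fits xs (ins (rnd B T (c - x)) (pre.map (rnd B T)) ++ bs.map (rnd B T)) := by
        refine h3.perm ?_
        refine List.perm_middle.trans ?_
        exact ((ins_perm _ _).append_right _).symm
      have h5 := Fits.dropZ hpos h4
      refine HasR.emit_new acc h5 ?_
      have := h5.sum_le 0 (fun _ _ => Nat.zero_le _)
      rwa [usable_zero] at this
  | a :: as, pre, prev, acc, hc, _, hf => by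
      rw [List.cons_append, List.map_cons, expandOne]
      have e : pre.map (rnd B T) ++ [rnd B T a] = (pre ++ [a]).map (rnd B T) := by simp
      rw [e]
      apply expandOne_spec hpos x B T hB c bs hxc as (pre ++ [a]) a
      · exact fun h => hc (List.mem_cons_of_mem _ h)
      · intro _ h
        exact hc (h ▸ List.mem_cons_self)
      · simpa using hf

/-- all states reached from a list of states -/
def levelRuns (x need B T : ℕ) : List (ℕ × List ℕ) → List (List (ℕ × List ℕ)) →
    List (List (ℕ × List ℕ))
  | [], acc => acc
  | s :: rest, acc =>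
      levelRuns x need B T rest
        (expandOne x need B T [] s.2 (roundAll B T s.2) (Nat.succ (s.2.headD 0)) acc)

theorem HasR.levelRuns_acc {P : List ℕ → Prop} (x need B T : ℕ) :
    ∀ (states : List (ℕ × List ℕ)) (acc : List (List (ℕ × List ℕ))), HasR P acc →
      HasR P (levelRuns x need B T states acc)
  | [], _, h => h
  | s :: rest, acc, h => by
      rw [levelRuns]
      exact HasR.levelRuns_acc x need B T rest _ (HasR.expandOne_acc x need B T _ _ _ _ _ h)

theorem levelRuns_spec {xs : List ℕ} (hpos : ∀ y ∈ xs, 0 < y) (x B T : ℕ) (hB : B = sums xs) :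
    ∀ (states : List (ℕ × List ℕ)) (acc : List (List (ℕ × List ℕ))),
      (∃ s ∈ states, Fits (x :: xs) s.2) → HasR (Fits xs) (levelRuns x xs.sum B T states acc)
  | [], _, h => by
      obtain ⟨s, hs, _⟩ := h
      cases hs
  | s :: rest, acc, h => by
      rw [levelRuns]
      obtain ⟨s', hs', hf⟩ := h
      rcases List.mem_cons.1 hs' with rfl | hs'
      · apply HasR.levelRuns_acc
        obtain ⟨pre, c, post, heq, hxc, hf⟩ := hf
        have hc : c ∈ s'.2 := by rw [heq]; simp
        obtain ⟨as, bs, hsplit, hnot⟩ := List.eq_append_cons_of_mem hc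
        have hperm : (pre ++ (c - x) :: post).Perm (as ++ (c - x) :: bs) := by
          have h1 : (c :: (pre ++ post)).Perm (c :: (as ++ bs)) := by
            refine List.perm_middle.symm.trans ?_
            rw [← heq, hsplit]
            exact List.perm_middle
          exact (List.perm_middle.trans (h1.cons_inv.cons (c - x))).trans List.perm_middle.symm
        rw [roundAll_eq, hsplit]
        have := expandOne_spec hpos x B T hB c bs hxc as [] (Nat.succ ((as ++ c :: bs).headD 0)) acc
          hnot (by rintro rfl; simp) (by simpa using hf.perm hperm)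
        simpa using this
      · exact levelRuns_spec hpos x B T hB rest _ ⟨s', hs', hf⟩

/-- merge two ascending lists of states, a state which occurs in both is kept once -/
def mergeD : ℕ → List (ℕ × List ℕ) → List (ℕ × List ℕ) → List (ℕ × List ℕ)
  | 0, a, b => a ++ b
  | _ + 1, [], b => b
  | _ + 1, x :: xs, [] => x :: xs
  | f + 1, x :: xs, y :: ys =>
      bif Nat.blt x.1 y.1 then x :: mergeD f xs (y :: ys)
      else bif Nat.blt y.1 x.1 then y :: mergeD f (x :: xs) ys
      else bif decide (x.2 = y.2) then mergeD f (x :: xs) ys
      else x :: mergeD f xs (y :: ys)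

/-- some state of the list has the property `P` -/
def HasP (P : List ℕ → Prop) (l : List (ℕ × List ℕ)) : Prop := ∃ e ∈ l, P e.2

theorem HasP.cons {P : List ℕ → Prop} {l : List (ℕ × List ℕ)} (x : ℕ × List ℕ) (h : HasP P l) :
    HasP P (x :: l) := by
  obtain ⟨e, he, hP⟩ := h
  exact ⟨e, List.mem_cons_of_mem _ he, hP⟩

theorem hasP_cons {P : List ℕ → Prop} {l : List (ℕ × List ℕ)} {x : ℕ × List ℕ} :
    HasP P (x :: l) ↔ P x.2 ∨ HasP P l := by
  constructor
  · rintro ⟨e, he, hP⟩
    rcases List.mem_cons.1 he with rfl | he
    · exact Or.inl hP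
    · exact Or.inr ⟨e, he, hP⟩
  · rintro (h | h)
    · exact ⟨x, List.mem_cons_self, h⟩
    · exact h.cons x

theorem mergeD_has {P : List ℕ → Prop} : ∀ (f : ℕ) (a b : List (ℕ × List ℕ)),
    HasP P a ∨ HasP P b → HasP P (mergeD f a b)
  | 0, a, b, h => by
      rw [mergeD]
      rcases h with ⟨e, he, hP⟩ | ⟨e, he, hP⟩
      · exact ⟨e, List.mem_append_left _ he, hP⟩
      · exact ⟨e, List.mem_append_right _ he, hP⟩
  | _ + 1, [], b, h => by
      rw [mergeD]
      rcases h with ⟨e, he, _⟩ | h
      · cases he
      · exact h
  | _ + 1, x :: xs, [], h => by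
      rw [mergeD]
      rcases h with h | ⟨e, he, _⟩
      · exact h
      · cases he
  | f + 1, x :: xs, y :: ys, h => by
      rw [mergeD]
      have hA : HasP P (x :: mergeD f xs (y :: ys)) := by
        rcases h with h | h
        · rcases hasP_cons.1 h with h | h
          · exact hasP_cons.2 (Or.inl h)
          · exact (mergeD_has f xs (y :: ys) (Or.inl h)).cons x
        · exact (mergeD_has f xs (y :: ys) (Or.inr h)).cons x
      cases Nat.blt x.1 y.1
      · cases Nat.blt y.1 x.1
        · by_cases hxy : x.2 = y.2
          · simp only [hxy, decide_true, cond_true, cond_false]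
            rcases h with h | h
            · exact mergeD_has f (x :: xs) ys (Or.inl h)
            · rcases hasP_cons.1 h with h | h
              · exact mergeD_has f (x :: xs) ys (Or.inl (hasP_cons.2 (Or.inl (hxy ▸ h))))
              · exact mergeD_has f (x :: xs) ys (Or.inr h)
          · simp only [hxy, decide_false, cond_false]
            exact hA
        · simp only [cond_true, cond_false]
          rcases h with h | h
          · exact (mergeD_has f (x :: xs) ys (Or.inl h)).cons y
          · rcases hasP_cons.1 h with h | h
            · exact hasP_cons.2 (Or.inl h)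
            · exact (mergeD_has f (x :: xs) ys (Or.inr h)).cons y
      · exact hA

/-- merge the lists in pairs -/
def mergePairs (F : ℕ) : List (List (ℕ × List ℕ)) → List (List (ℕ × List ℕ))
  | a :: b :: rest => mergeD F a b :: mergePairs F rest
  | [a] => [a]
  | [] => []

theorem mergePairs_has {P : List ℕ → Prop} (F : ℕ) : ∀ (runs : List (List (ℕ × List ℕ))),
    HasR P runs → HasR P (mergePairs F runs)
  | [], h => h
  | [_], h => h
  | a :: b :: rest, h => by
      rw [mergePairs]
      obtain ⟨r, hr, hP⟩ := h
      rcases List.mem_cons.1 hr with rfl | hr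
      · exact ⟨_, List.mem_cons_self, mergeD_has F r b (Or.inl hP)⟩
      · rcases List.mem_cons.1 hr with rfl | hr
        · exact ⟨_, List.mem_cons_self, mergeD_has F a r (Or.inr hP)⟩
        · obtain ⟨r', hr', hP'⟩ := mergePairs_has F rest ⟨r, hr, hP⟩
          exact ⟨r', List.mem_cons_of_mem _ hr', hP'⟩

/-- merge all lists -/
def mergeAll (F : ℕ) : ℕ → List (List (ℕ × List ℕ)) → List (ℕ × List ℕ)
  | 0, runs => runs.flatten
  | _ + 1, [] => []
  | _ + 1, [a] => a
  | d + 1, a :: b :: rest => mergeAll F d (mergePairs F (a :: b :: rest))

theorem mergeAll_has {P : List ℕ → Prop} (F : ℕ) : ∀ (d : ℕ) (runs : List (List (ℕ × List ℕ))),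
    HasR P runs → HasP P (mergeAll F d runs)
  | 0, runs, h => by
      obtain ⟨r, hr, e, he, hP⟩ := h
      exact ⟨e, List.mem_flatten.2 ⟨r, hr, he⟩, hP⟩
  | _ + 1, [], h => by
      obtain ⟨r, hr, _⟩ := h
      cases hr
  | _ + 1, [a], h => by
      obtain ⟨r, hr, hP⟩ := h
      rw [List.mem_singleton] at hr
      subst hr
      exact hP
  | d + 1, a :: b :: rest, h => by
      rw [mergeAll]
      exact mergeAll_has F d _ (mergePairs_has F _ h)

/-- the level by level search: `true` if some state is left after all items have been placed -/
def bfs (L F : ℕ) : List ℕ → List (ℕ × List ℕ) → Bool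
  | [], states => !states.isEmpty
  | x :: xs, states =>
      force (fun B => force (fun T => force (fun need =>
        bfs L F xs (mergeAll F 64 (levelRuns x need B T states []))) xs.sum) (mkT B L).2) (sums xs)

theorem bfs_true_of_fits (L F : ℕ) : ∀ (xs : List ℕ) (states : List (ℕ × List ℕ)),
    (∀ y ∈ xs, 0 < y) → HasP (Fits xs) states → bfs L F xs states = true
  | [], states, _, h => by
      obtain ⟨e, he, _⟩ := h
      rw [bfs]
      cases states with
      | nil => cases he
      | cons _ _ => rfl
  | x :: xs, states, hpos, h => by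
      rw [bfs, force_eq, force_eq, force_eq]
      have hpos' : ∀ y ∈ xs, 0 < y := fun y hy => hpos y (List.mem_cons_of_mem _ hy)
      exact bfs_true_of_fits L F xs _ hpos'
        (mergeAll_has F 64 _ (levelRuns_spec hpos' x _ _ rfl states [] h))

end Vale.Agent.P302
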