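import Vale.Agent.P302.Search

/-!
# P302: exhaustive search with rounding of the capacities to subset sums

A remaining capacity `c` may be replaced by the largest sum of a sublist of the remaining items
which is at most `c`.  The set of all these sums is kept as the set of binary digits of a number.
-/

namespace Vale.Agent.P302

/-- the number whose binary digit `t` is set for every sum `t` of a sublist of the list -/
def sums : List ℕ → ℕ
  | [] => 1
  | x :: xs => sums xs ||| (sums xs <<< x)

theorem sums_testBit : ∀ {T xs : List ℕ}, T.Sublist xs → (sums xs).testBit T.sum = true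
  | _, _, List.Sublist.slnil => by simp [sums]
  | _, _, List.Sublist.cons x h => by
      rw [sums, Nat.testBit_or, sums_testBit h]
      rfl
  | _, _, List.Sublist.cons_cons x h => by
      rw [sums, Nat.testBit_or, Nat.testBit_shiftLeft, List.sum_cons, Nat.add_sub_cancel_left,
        sums_testBit h]
      simp

/-- evaluate the argument first -/
def strict {β : Type} (f : ℕ → β) (n : ℕ) : β :=
  match n with
  | 0 => f 0
  | Nat.succ k => f (Nat.succ k)

theorem strict_eq {β : Type} (f : ℕ → β) (n : ℕ) : strict f n = f n := by
  cases n <;> rfl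

/-- a table (16 binary digits for each entry) of the largest digit of `B` which is set and at most
`c`; nothing is proved about it, its entries are checked when they are used -/
def mkT (B : ℕ) : ℕ → ℕ × ℕ
  | 0 => (0, 0)
  | c + 1 =>
      ((bif Nat.testBit B (c + 1) then c + 1 else (mkT B c).1),
        Nat.add (mkT B c).2
          (Nat.shiftLeft (bif Nat.testBit B (c + 1) then c + 1 else (mkT B c).1)
            (Nat.mul 16 (c + 1))))

/-- the entry `r` of the table `T` at `c` if no binary digit of `B` between `r + 1` and `c` is set,
and `c` otherwise -/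
def rnd (B T c : ℕ) : ℕ :=
  bif Nat.beq (Nat.shiftRight (Nat.mod B (Nat.pow 2 (Nat.succ c)))
      (Nat.succ (Nat.mod (Nat.shiftRight T (Nat.mul 16 c)) 65536))) 0
  then Nat.mod (Nat.shiftRight T (Nat.mul 16 c)) 65536 else c

theorem le_rnd {B t c : ℕ} (T : ℕ) (h : B.testBit t = true) (htc : t ≤ c) : t ≤ rnd B T c := by
  unfold rnd
  generalize Nat.mod (Nat.shiftRight T (Nat.mul 16 c)) 65536 = r
  cases hb : Nat.beq (Nat.shiftRight (Nat.mod B (Nat.pow 2 (Nat.succ c))) (Nat.succ r)) 0
  · simpa using htc
  · simp only [cond_true]
    have h0 : (B % 2 ^ (c + 1)) >>> (r + 1) = 0 := Nat.eq_of_beq_eq_true hb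
    by_contra hlt
    have h1 : (B % 2 ^ (c + 1)).testBit t = true := by
      rw [Nat.testBit_mod_two_pow, h]
      simp
      omega
    have h2 : ((B % 2 ^ (c + 1)) >>> (r + 1)).testBit (t - (r + 1)) = true := by
      rw [Nat.testBit_shiftRight]
      have : r + 1 + (t - (r + 1)) = t := by omega
      rw [this, h1]
    rw [h0] at h2
    simp at h2

theorem Fits.round_head : ∀ {xs : List ℕ} {c c' : ℕ} {caps : List ℕ}, Fits xs (c :: caps) →
    (∀ T : List ℕ, T.Sublist xs → T.sum ≤ c → T.sum ≤ c') → Fits xs (c' :: caps)
  | [], _, _, _, _, _ => trivial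
  | x :: xs, c, c', caps, h, H => by
      obtain ⟨pre, d, post, heq, hxd, hf⟩ := h
      rcases pre with _ | ⟨e, pre⟩
      · rw [List.nil_append, List.cons.injEq] at heq
        obtain ⟨rfl, rfl⟩ := heq
        have hxc' : x ≤ c' := by
          have := H [x] (List.singleton_sublist.2 List.mem_cons_self) (by simpa using hxd)
          simpa using this
        refine ⟨[], c', caps, rfl, hxc', ?_⟩
        rw [List.nil_append] at hf ⊢
        refine hf.round_head ?_
        intro T hT hsum
        have := H (x :: T) (hT.cons_cons x) (by rw [List.sum_cons]; omega)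
        rw [List.sum_cons] at this
        omega
      · rw [List.cons_append, List.cons.injEq] at heq
        obtain ⟨rfl, rfl⟩ := heq
        refine ⟨c' :: pre, d, post, rfl, hxd, ?_⟩
        rw [List.cons_append] at hf ⊢
        exact hf.round_head fun T hT => H T (hT.cons x)

theorem Fits.round_aux {xs : List ℕ} {r : ℕ → ℕ}
    (H : ∀ c : ℕ, ∀ T : List ℕ, T.Sublist xs → T.sum ≤ c → T.sum ≤ r c) :
    ∀ (l1 l2 : List ℕ), Fits xs (l1 ++ l2) → Fits xs (l1.map r ++ l2)
  | [], _, h => h
  | c :: l1, l2, h => by
      rw [List.cons_append] at h
      have h1 : Fits xs (r c :: (l1 ++ l2)) := h.round_head (H c)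
      have h2 : Fits xs (l1 ++ (r c :: l2)) := h1.perm List.perm_middle.symm
      have h3 := Fits.round_aux H l1 (r c :: l2) h2
      rw [List.map_cons, List.cons_append]
      exact h3.perm List.perm_middle

theorem Fits.round {xs caps : List ℕ} (T : ℕ) (h : Fits xs caps) :
    Fits xs (caps.map (rnd (sums xs) T)) := by
  have := Fits.round_aux (xs := xs) (r := rnd (sums xs) T)
    (fun c U hU hsum => le_rnd T (sums_testBit hU) hsum) caps [] (by simpa using h)
  simpa using this

theorem usable_zero (caps : List ℕ) : usable 0 caps = caps.sum := by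
  simp [usable]

/-- exhaustive search with three prunings (equal bins, rounding of the capacities, volume) -/
def searchR (L : ℕ) : List ℕ → List ℕ → Bool
  | [], _ => true
  | x :: xs, caps =>
      strict (fun B => strict (fun T =>
        decide ((x :: xs).sum ≤ (caps.map (rnd B T)).sum) &&
          tryBins x (searchR L xs) [] (caps.map (rnd B T))) (mkT B L).2) (sums (x :: xs))

theorem searchR_true_of_fits (L : ℕ) : ∀ {xs : List ℕ} {caps : List ℕ}, Fits xs caps →
    searchR L xs caps = true
  | [], _, _ => rfl
  | x :: xs, caps, h0 => by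
      rw [searchR, strict_eq, strict_eq]
      have h := h0.round (mkT (sums (x :: xs)) L).2
      have hvol := h.sum_le 0 (fun _ _ => Nat.zero_le _)
      rw [usable_zero] at hvol
      rw [decide_eq_true hvol, Bool.true_and]
      generalize caps.map (rnd (sums (x :: xs)) (mkT (sums (x :: xs)) L).2) = caps' at h
      obtain ⟨pre, c, post, rfl, hxc, hf⟩ := h
      have hc : c ∈ pre ++ c :: post := by simp
      obtain ⟨as, bs, hsplit, hnot⟩ := List.eq_append_cons_of_mem hc
      have hperm : (pre ++ (c - x) :: post).Perm (as ++ (c - x) :: bs) := by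
        have h1 : (c :: (pre ++ post)).Perm (c :: (as ++ bs)) := by
          refine List.perm_middle.symm.trans ?_
          rw [hsplit]
          exact List.perm_middle
        exact (List.perm_middle.trans (h1.cons_inv.cons (c - x))).trans List.perm_middle.symm
      have hk : searchR L xs (([] ++ as) ++ (c - x) :: bs) = true :=
        searchR_true_of_fits L (hf.perm hperm)
      have ht := tryBins_true x (searchR L xs) as [] c bs hxc (by simpa using hnot) hk
      rw [hsplit, ht]

end Vale.Agent.P302
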