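import Vale.Agent.P302.Defs

/-!
# P302: a verified exhaustive search for packings (integer sizes)
-/

namespace Vale.Agent.P302

/-- The items `xs` can be put one after the other into bins with remaining capacities `caps`. -/
def Fits : List ℕ → List ℕ → Prop
  | [], _ => True
  | x :: xs, caps =>
      ∃ pre c post, caps = pre ++ c :: post ∧ x ≤ c ∧ Fits xs (pre ++ (c - x) :: post)

theorem forall₂_split {α β : Type*} {R : α → β → Prop} :
    ∀ {l1 : List α} {a : α} {l2 : List α} {l : List β}, List.Forall₂ R (l1 ++ a :: l2) l →
      ∃ m1 c m2, l = m1 ++ c :: m2 ∧ List.Forall₂ R l1 m1 ∧ R a c ∧ List.Forall₂ R l2 m2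
  | [], a, l2, l, h => by
      rcases l with _ | ⟨c, m⟩
      · cases h
      · rw [List.nil_append, List.forall₂_cons] at h
        exact ⟨[], c, m, rfl, List.Forall₂.nil, h.1, h.2⟩
  | b :: l1, a, l2, l, h => by
      rcases l with _ | ⟨c, m⟩
      · cases h
      · rw [List.cons_append, List.forall₂_cons] at h
        obtain ⟨m1, c', m2, rfl, h1, h2, h3⟩ := forall₂_split h.2
        exact ⟨c :: m1, c', m2, rfl, List.Forall₂.cons h.1 h1, h2, h3⟩

theorem forall₂_join {α β : Type*} {R : α → β → Prop} :
    ∀ {l1 : List α} {a : α} {l2 : List α} {m1 : List β} {c : β} {m2 : List β},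
      List.Forall₂ R l1 m1 → R a c → List.Forall₂ R l2 m2 →
      List.Forall₂ R (l1 ++ a :: l2) (m1 ++ c :: m2)
  | _, _, _, _, _, _, List.Forall₂.nil, h2, h3 => List.Forall₂.cons h2 h3
  | _, _, _, _, _, _, List.Forall₂.cons h h1, h2, h3 =>
      List.Forall₂.cons h (forall₂_join h1 h2 h3)

theorem fits_of_bins : ∀ (xs : List ℕ) (bins : List (List ℕ)) (caps : List ℕ),
    List.Forall₂ (fun b c => b.sum ≤ c) bins caps → bins.flatten.Perm xs → Fits xs caps
  | [], _, _, _, _ => trivial
  | x :: xs, bins, caps, hcap, hperm => by
      have hx : x ∈ bins.flatten := hperm.mem_iff.2 (List.mem_cons_self)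
      obtain ⟨b, hb, hxb⟩ := List.mem_flatten.1 hx
      obtain ⟨B1, B2, rfl⟩ := List.append_of_mem hb
      obtain ⟨m1, c, m2, rfl, h1, h2, h3⟩ := forall₂_split hcap
      have hsum : x + (b.erase x).sum = b.sum := List.sum_erase hxb
      refine ⟨m1, c, m2, rfl, by omega, ?_⟩
      apply fits_of_bins xs (B1 ++ b.erase x :: B2)
      · exact forall₂_join h1 (by show (b.erase x).sum ≤ c - x; omega) h3
      · have e1 : (B1 ++ b :: B2).flatten.Perm (x :: (B1 ++ b.erase x :: B2).flatten) := by
          simp only [List.flatten_append, List.flatten_cons]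
          have hp : b.Perm (x :: b.erase x) := List.perm_cons_erase hxb
          calc (B1.flatten ++ (b ++ B2.flatten)).Perm
                (B1.flatten ++ ((x :: b.erase x) ++ B2.flatten)) :=
                List.Perm.append_left _ (List.Perm.append_right _ hp)
            _ = (B1.flatten ++ x :: (b.erase x ++ B2.flatten)) := rfl
            _ |>.Perm (x :: (B1.flatten ++ (b.erase x ++ B2.flatten))) := List.perm_middle
        exact (e1.symm.trans hperm).cons_inv

theorem Fits.perm : ∀ {xs : List ℕ} {caps caps' : List ℕ}, Fits xs caps → caps.Perm caps' →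
    Fits xs caps'
  | [], _, _, _, _ => trivial
  | x :: xs, caps, caps', h, hp => by
      obtain ⟨pre, c, post, rfl, hxc, hf⟩ := h
      have hc : c ∈ caps' := hp.mem_iff.1 (by simp)
      obtain ⟨pre', post', rfl⟩ := List.append_of_mem hc
      refine ⟨pre', c, post', rfl, hxc, hf.perm ?_⟩
      have h1 : (c :: (pre ++ post)).Perm (c :: (pre' ++ post')) :=
        (List.perm_middle.symm.trans hp).trans List.perm_middle
      have h2 := h1.cons_inv
      exact (List.perm_middle.trans (h2.cons (c - x))).trans List.perm_middle.symm

/-- total capacity of the bins which can still take an item of size at least `s` -/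
def usable (s : ℕ) (caps : List ℕ) : ℕ := (caps.filter (fun c => decide (s ≤ c))).sum

theorem usable_append (s : ℕ) (l1 l2 : List ℕ) :
    usable s (l1 ++ l2) = usable s l1 + usable s l2 := by
  simp [usable, List.filter_append]

theorem usable_cons (s c : ℕ) (l : List ℕ) :
    usable s (c :: l) = (if s ≤ c then c else 0) + usable s l := by
  by_cases h : s ≤ c <;> simp [usable, h]

theorem Fits.sum_le (s : ℕ) : ∀ {xs : List ℕ} {caps : List ℕ}, Fits xs caps →
    (∀ y ∈ xs, s ≤ y) → xs.sum ≤ usable s caps
  | [], _, _, _ => by simp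
  | x :: xs, caps, h, hs => by
      obtain ⟨pre, c, post, rfl, hxc, hf⟩ := h
      have ih := hf.sum_le s (fun y hy => hs y (List.mem_cons_of_mem _ hy))
      have hsx : s ≤ x := hs x (List.mem_cons_self)
      rw [usable_append, usable_cons] at ih ⊢
      rw [List.sum_cons, if_pos (le_trans hsx hxc)]
      split_ifs at ih <;> omega

/-- try to put an item of size `x` into one of the bins `post` (the bins `pre` have been tried);
bins with the same remaining capacity as a bin tried before are skipped -/
def tryBins (x : ℕ) (k : List ℕ → Bool) : List ℕ → List ℕ → Bool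
  | _, [] => false
  | pre, c :: post =>
      (decide (x ≤ c) && !(pre.contains c) && k (pre ++ (c - x) :: post)) ||
        tryBins x k (pre ++ [c]) post

/-- exhaustive search with two prunings (equal bins, volume bound) -/
def search (s : ℕ) : List ℕ → List ℕ → Bool
  | [], _ => true
  | x :: xs, caps =>
      decide ((x :: xs).sum ≤ usable s caps) && tryBins x (search s xs) [] caps

theorem tryBins_true (x : ℕ) (k : List ℕ → Bool) : ∀ (r1 : List ℕ) (pre : List ℕ) (c : ℕ)
    (r2 : List ℕ), x ≤ c → c ∉ pre ++ r1 → k ((pre ++ r1) ++ (c - x) :: r2) = true →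
    tryBins x k pre (r1 ++ c :: r2) = true
  | [], pre, c, r2, hxc, hc, hk => by
      simp only [List.append_nil] at hc hk
      simp [tryBins, hxc, hc, hk]
  | d :: r1, pre, c, r2, hxc, hc, hk => by
      have := tryBins_true x k r1 (pre ++ [d]) c r2 hxc (by simpa using hc) (by simpa using hk)
      simp [tryBins, this]

theorem search_true_of_fits (s : ℕ) : ∀ {xs : List ℕ} {caps : List ℕ}, Fits xs caps →
    (∀ y ∈ xs, s ≤ y) → search s xs caps = true
  | [], _, _, _ => rfl
  | x :: xs, caps, h, hs => by
      have hvol := h.sum_le s hs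
      obtain ⟨pre, c, post, rfl, hxc, hf⟩ := h
      have hc : c ∈ pre ++ c :: post := by simp
      obtain ⟨as, bs, hsplit, hnot⟩ := List.eq_append_cons_of_mem hc
      have hperm : (pre ++ (c - x) :: post).Perm (as ++ (c - x) :: bs) := by
        have h1 : (c :: (pre ++ post)).Perm (c :: (as ++ bs)) := by
          refine List.perm_middle.symm.trans ?_
          rw [hsplit]
          exact List.perm_middle
        exact (List.perm_middle.trans (h1.cons_inv.cons (c - x))).trans List.perm_middle.symm
      have hk : search s xs (([] ++ as) ++ (c - x) :: bs) = true :=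
        search_true_of_fits s (hf.perm hperm) (fun y hy => hs y (List.mem_cons_of_mem _ hy))
      have ht := tryBins_true x (search s xs) as [] c bs hxc (by simpa using hnot) hk
      rw [search, hsplit, ht]
      rw [hsplit] at hvol
      rw [decide_eq_true hvol]
      rfl

end Vale.Agent.P302
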